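import Mathlib

namespace Vale.Agent.Lib.P324

/-- `τ` is a schedule of length `T` on `m` machines for the unit jobs `V` with arc relation `E`:
every job gets a slot in `{1,...,T}`, every slot is used at most `m` times and `τ u < τ v` for every
arc `(u,v)`. -/
def IsSchedule {V : Type*} [Fintype V] (m T : ℕ) (E : V → V → Prop) (τ : V → ℕ) : Prop :=
  (∀ v, 1 ≤ τ v ∧ τ v ≤ T) ∧
  (∀ t, (Finset.univ.filter (fun v => τ v = t)).card ≤ m) ∧
  (∀ u v, E u v → τ u < τ v)

/-- The unordered relaxation: `σ` splits the jobs into `T` classes of size at most `m`, and two jobs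
joined by a directed path never share a class (every class is an antichain of the precedence
order).  The classes are not required to be compatible with the order. -/
def IsAntichainPacking {V : Type*} [Fintype V] (m T : ℕ) (E : V → V → Prop) (σ : V → ℕ) : Prop :=
  (∀ v, 1 ≤ σ v ∧ σ v ≤ T) ∧
  (∀ t, (Finset.univ.filter (fun v => σ v = t)).card ≤ m) ∧
  (∀ u v, Relation.TransGen E u v → σ u ≠ σ v)

/-- the arc relation has no directed cycle -/
def Acyclic {V : Type*} (E : V → V → Prop) : Prop := ∀ v, ¬ Relation.TransGen E v v

end Vale.Agent.Lib.P324
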