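import Vale.Agent.Lib.P324.ThreeGap

namespace Vale.Agent.Lib.P324

/-- jobs of the gap instance for `m` machines: `k` blocks; a block has two sides; a side has `m - 1`
sources (`some i`) and one sink (`none`) -/
abbrev GV (m k : ℕ) : Type := Fin k × Bool × Option (Fin (m - 1))

/-- arcs: every job of a block precedes every job of all later blocks; inside a block every source
of a side precedes the sink of the same side -/
def gE (m k : ℕ) (u v : GV m k) : Prop :=
  u.1.val < v.1.val ∨
    (u.1.val = v.1.val ∧ u.2.1 = v.2.1 ∧ u.2.2.isSome = true ∧ v.2.2.isSome = false)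

/-- the packing: the sources of a side together with the sink of the other side -/
def gSigma (m k : ℕ) (u : GV m k) : ℕ := 2 * u.1.val + (if u.2.1 = u.2.2.isSome then 1 else 2)

/-- the schedule with three slots for every block -/
def gTau (m k : ℕ) (u : GV m k) : ℕ :=
  match u with
  | (b, false, some _) => 3 * b.val + 1
  | (b, true, some i) => if i.val = 0 then 3 * b.val + 1 else 3 * b.val + 2
  | (b, false, none) => 3 * b.val + 2
  | (b, true, none) => 3 * b.val + 3

/-- label used to count the jobs of a slot -/
def gLab (m k : ℕ) (u : GV m k) : Option (Fin (m - 1)) :=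
  match u with
  | (_, false, some i) => some i
  | (_, true, some i) => if i.val = 0 then none else some i
  | (_, false, none) => none
  | (_, true, none) => none

lemma gE_trans {m k : ℕ} {u v : GV m k} (h : Relation.TransGen (gE m k) u v) : gE m k u v := by
  induction h with
  | single h => exact h
  | tail _ h2 ih =>
    unfold gE at *
    rcases ih with h | ⟨h1, h3, h4, h5⟩
    · rcases h2 with h' | ⟨h1', -⟩
      · left; omega
      · left; omega
    · rcases h2 with h' | ⟨h1', h3', h4', h5'⟩
      · left; omega
      · rw [h5] at h4'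
        exact absurd h4' (by simp)

lemma gE_acyclic (m k : ℕ) : Acyclic (gE m k) := by
  intro v h
  have := gE_trans h
  unfold gE at this
  rcases this with h | ⟨-, -, h4, h5⟩
  · omega
  · rw [h4] at h5
    exact absurd h5 (by simp)

lemma card_option_fin {m : ℕ} (hm : 1 ≤ m) : Fintype.card (Option (Fin (m - 1))) = m := by
  simp only [Fintype.card_option, Fintype.card_fin]
  omega

lemma g_fiber_le {m k : ℕ} (hm : 1 ≤ m) (f : GV m k → ℕ) (lab : GV m k → Option (Fin (m - 1)))
    (hinj : ∀ u v, f u = f v → lab u = lab v → u = v) (t : ℕ) :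
    (Finset.univ.filter (fun v : GV m k => f v = t)).card ≤ m := by
  have h1 : (Finset.univ.filter (fun v : GV m k => f v = t)).card
      ≤ (Finset.univ : Finset (Option (Fin (m - 1)))).card := by
    apply Finset.card_le_card_of_injOn lab
    · intro v _
      exact Finset.mem_coe.2 (Finset.mem_univ _)
    · intro u hu v hv huv
      have hu' : f u = t := by simpa using hu
      have hv' : f v = t := by simpa using hv
      exact hinj u v (hu'.trans hv'.symm) huv
  rw [Finset.card_univ, card_option_fin hm] at h1
  exact h1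

lemma g_packing {m : ℕ} (hm : 1 ≤ m) (k : ℕ) :
    IsAntichainPacking m (2 * k) (gE m k) (gSigma m k) := by
  refine ⟨?_, ?_, ?_⟩
  · rintro ⟨b, s, x⟩
    have := b.isLt
    simp only [gSigma]
    split_ifs <;> omega
  · apply g_fiber_le hm (gSigma m k) (fun u => u.2.2)
    rintro ⟨b, s, x⟩ ⟨b', s', x'⟩ h1 h2
    simp only at h2
    subst h2
    simp only [gSigma] at h1
    have hb : b = b' := by
      apply Fin.ext
      split_ifs at h1 <;> omega
    subst hb
    have hs : s = s' := by
      cases s <;> cases s' <;> cases hx : x.isSome <;> simp [hx] at h1 ⊢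
    subst hs
    rfl
  · rintro ⟨b, s, x⟩ ⟨b', s', x'⟩ h
    have h' := gE_trans h
    simp only [gE] at h'
    simp only [gSigma]
    rcases h' with h' | ⟨h1, h3, h4, h5⟩
    · split_ifs <;> omega
    · subst h3
      rw [h4, h5, h1]
      cases s <;> simp

lemma g_schedule {m : ℕ} (hm : 1 ≤ m) (k : ℕ) : IsSchedule m (3 * k) (gE m k) (gTau m k) := by
  refine ⟨?_, ?_, ?_⟩
  · rintro ⟨b, s, x⟩
    have := b.isLt
    cases s <;> cases x <;> simp only [gTau] <;> (try split_ifs) <;> omega
  · apply g_fiber_le hm (gTau m k) (gLab m k)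
    rintro ⟨b, s, x⟩ ⟨b', s', x'⟩ h1 h2
    cases s <;> cases s' <;> cases x <;> cases x' <;> simp only [gTau, gLab] at h1 h2 <;>
      (try split_ifs at h1 h2) <;> (try (exfalso; omega)) <;> (try simp at h2) <;>
      (try subst h2) <;>
      (try (have hb : b = b' := Fin.ext (by omega)
            subst hb
            rfl))
    all_goals
      have hb : b = b' := Fin.ext (by omega)
      subst hb
      congr 3
      apply Fin.ext
      omega
  · rintro ⟨b, s, x⟩ ⟨b', s', x'⟩ h
    simp only [gE] at h
    rcases h with h | ⟨h1, h3, h4, h5⟩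
    · cases s <;> cases s' <;> cases x <;> cases x' <;> simp only [gTau] <;>
        (try split_ifs) <;> omega
    · subst h3
      cases x with
      | none => simp at h4
      | some i =>
        cases x' with
        | some j => simp at h5
        | none =>
          cases s <;> simp only [gTau] <;> (try split_ifs) <;> omega

lemma g_block_step {m k T : ℕ} (hm : 3 ≤ m) {τ : GV m k → ℕ} (h : IsSchedule m T (gE m k) τ)
    (b : Fin k) (hlow : ∀ v : GV m k, v.1 = b → 3 * b.val + 1 ≤ τ v) :
    ∃ v : GV m k, v.1 = b ∧ 3 * (b.val + 1) ≤ τ v := by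
  by_contra hcon
  have hup : ∀ v : GV m k, v.1 = b → τ v ≤ 3 * b.val + 2 := by
    intro v hv
    by_contra hlt
    exact hcon ⟨v, hv, by omega⟩
  obtain ⟨_, hcard, harc⟩ := h
  have key : ∀ (s : Bool) (i : Fin (m - 1)), τ (b, s, some i) = 3 * b.val + 1 := by
    intro s i
    have h1 := hlow (b, s, some i) rfl
    have h2 := harc (b, s, some i) (b, s, none) (Or.inr ⟨rfl, rfl, rfl, rfl⟩)
    have h3 := hup (b, s, none) rfl
    omega
  let g : Bool × Fin (m - 1) → GV m k := fun p => (b, p.1, some p.2)
  have hg : Function.Injective g := by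
    rintro ⟨s, i⟩ ⟨s', i'⟩ hij
    simp only [g, Prod.mk.injEq, Option.some.injEq, true_and] at hij
    exact Prod.ext hij.1 hij.2
  have hsub : Finset.univ.image g ⊆ Finset.univ.filter (fun v => τ v = 3 * b.val + 1) := by
    intro v hv
    obtain ⟨p, _, rfl⟩ := Finset.mem_image.mp hv
    simp only [Finset.mem_filter, Finset.mem_univ, true_and]
    exact key p.1 p.2
  have h4 : (Finset.univ.image g).card = 2 * (m - 1) := by
    rw [Finset.card_image_of_injective _ hg]
    simp
  have := Finset.card_le_card hsub
  have := hcard (3 * b.val + 1)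
  omega

lemma g_lower_aux {m k T : ℕ} (hm : 3 ≤ m) {τ : GV m k → ℕ} (h : IsSchedule m T (gE m k) τ) :
    ∀ b (hb : b < k), ∃ v : GV m k, v.1 = ⟨b, hb⟩ ∧ 3 * (b + 1) ≤ τ v := by
  intro b
  induction b with
  | zero =>
    intro hb
    apply g_block_step hm h ⟨0, hb⟩
    intro v _
    have := (h.1 v).1
    simpa using this
  | succ b ih =>
    intro hb
    obtain ⟨w, hw, hw2⟩ := ih (by omega)
    apply g_block_step hm h ⟨b + 1, hb⟩
    intro v hv
    have := h.2.2 w v (Or.inl (by rw [hw, hv]; simp))
    simp only
    omega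

lemma g_lower {m k T : ℕ} (hm : 3 ≤ m) {τ : GV m k → ℕ} (h : IsSchedule m T (gE m k) τ) :
    3 * k ≤ T := by
  rcases Nat.eq_zero_or_pos k with hk | hk
  · omega
  · obtain ⟨v, _, hv⟩ := g_lower_aux hm h (k - 1) (by omega)
    have := (h.1 v).2
    omega

lemma g_card {m : ℕ} (hm : 1 ≤ m) (k : ℕ) : Fintype.card (GV m k) = 2 * m * k := by
  simp only [Fintype.card_prod, Fintype.card_fin, Fintype.card_bool, card_option_fin hm]
  ring

lemma g_packing_lower {m k T : ℕ} (hm : 1 ≤ m) {σ : GV m k → ℕ}
    (h : IsAntichainPacking m T (gE m k) σ) : 2 * k ≤ T := by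
  have h1 := packing_card h
  rw [g_card hm] at h1
  have h2 : m * (2 * k) ≤ m * T := by
    calc m * (2 * k) = 2 * m * k := by ring
      _ ≤ m * T := h1
  exact Nat.le_of_mul_le_mul_left h2 (by omega)

end Vale.Agent.Lib.P324
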