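import Vale.Agent.Lib.P324.TwoFinal

namespace Vale.Agent.Lib.P324

section G

variable {V : Type*} [DecidableEq V]

/-- schedule a set `A` of at most `m` minimal jobs first, then the rest -/
theorem gstep (lt : V → V → Prop) (m : ℕ) (S A : Finset V) (N' : ℕ)
    (hAm : A.card ≤ m) (hAmin : ∀ a ∈ A, ∀ u ∈ S, ¬ lt u a)
    (τ' : V → ℕ) (h1 : ∀ v ∈ S \ A, 1 ≤ τ' v ∧ τ' v ≤ N')
    (h2 : ∀ t, ((S \ A).filter (fun v => τ' v = t)).card ≤ m)
    (h3 : ∀ u ∈ S \ A, ∀ v ∈ S \ A, lt u v → τ' u < τ' v) :
    ∃ τ : V → ℕ, (∀ v ∈ S, 1 ≤ τ v ∧ τ v ≤ N' + 1) ∧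
      (∀ t, (S.filter (fun v => τ v = t)).card ≤ m) ∧
      (∀ u ∈ S, ∀ v ∈ S, lt u v → τ u < τ v) := by
  refine ⟨fun v => if v ∈ A then 1 else τ' v + 1, ?_, ?_, ?_⟩
  · intro v hv
    by_cases hvA : v ∈ A
    · simp only [hvA, if_true]
      omega
    · have := h1 v (Finset.mem_sdiff.mpr ⟨hv, hvA⟩)
      simp only [hvA, if_false]
      omega
  · intro t
    by_cases ht : t = 1
    · subst ht
      refine (Finset.card_le_card ?_).trans hAm
      intro v hv
      obtain ⟨hvS, hvt⟩ := Finset.mem_filter.mp hv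
      by_contra hvA
      have := h1 v (Finset.mem_sdiff.mpr ⟨hvS, hvA⟩)
      simp only [hvA, if_false] at hvt
      omega
    · refine (Finset.card_le_card ?_).trans (h2 (t - 1))
      intro v hv
      obtain ⟨hvS, hvt⟩ := Finset.mem_filter.mp hv
      have hvA : v ∉ A := by
        intro hvA
        simp only [hvA, if_true] at hvt
        exact ht hvt.symm
      simp only [hvA, if_false] at hvt
      exact Finset.mem_filter.mpr ⟨Finset.mem_sdiff.mpr ⟨hvS, hvA⟩, by omega⟩
  · intro u hu v hv huv
    have hvA : v ∉ A := fun hvA => hAmin v hvA u hu huv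
    have hv' := Finset.mem_sdiff.mpr ⟨hv, hvA⟩
    by_cases huA : u ∈ A
    · have := h1 v hv'
      simp only [huA, hvA, if_true, if_false]
      omega
    · have := h3 u (Finset.mem_sdiff.mpr ⟨hu, huA⟩) v hv' huv
      simp only [huA, hvA, if_false]
      omega

/-- Graham's bound for greedy schedules: if every chain inside `S` has at most `L` elements then `S`
has an `m`-machine schedule of length `N` with `m N ≤ |S| + (m-1) L`. -/
theorem graham_core (lt : V → V → Prop)
    (hirr : ∀ v, ¬ lt v v) (htr : ∀ u v w, lt u v → lt v w → lt u w) (m : ℕ) (hm : 1 ≤ m) :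
    ∀ (c : ℕ) (S : Finset V) (L : ℕ), S.card = c →
      (∀ C ⊆ S, (∀ x ∈ C, ∀ y ∈ C, x ≠ y → lt x y ∨ lt y x) → C.card ≤ L) →
      ∃ (N : ℕ) (τ : V → ℕ), (∀ v ∈ S, 1 ≤ τ v ∧ τ v ≤ N) ∧
        (∀ t, (S.filter (fun v => τ v = t)).card ≤ m) ∧
        (∀ u ∈ S, ∀ v ∈ S, lt u v → τ u < τ v) ∧ m * N ≤ S.card + (m - 1) * L := by
  classical
  intro c
  induction c using Nat.strong_induction_on with
  | _ c ih =>
    intro S L hc hL
    rcases S.eq_empty_or_nonempty with rfl | ⟨x0, hx0⟩
    · exact ⟨0, fun _ => 0, by simp, by simp, by simp, by simp⟩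
    set Mn : Finset V := S.filter (fun v => ∀ u ∈ S, ¬ lt u v) with hMn
    have hMnS : Mn ⊆ S := Finset.filter_subset _ _
    have hMnmin : ∀ a ∈ Mn, ∀ u ∈ S, ¬ lt u a := fun a ha => (Finset.mem_filter.1 ha).2
    have hMnne : Mn.Nonempty := by
      obtain ⟨a, haS, -, hamin⟩ := exists_min lt hirr htr S (fun _ => True) hx0 trivial
      exact ⟨a, Finset.mem_filter.2 ⟨haS, fun u hu => hamin u hu trivial⟩⟩
    have hL1 : 1 ≤ L := by
      have := hL {x0} (by simpa using hx0) (by
        intro x hx y hy hxy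
        simp only [Finset.mem_singleton] at hx hy
        exact absurd (hx.trans hy.symm) hxy)
      simpa using this
    by_cases hfull : m ≤ Mn.card
    · obtain ⟨A, hAsub, hAcard⟩ := Finset.exists_subset_card_eq hfull
      have hAS : A ⊆ S := hAsub.trans hMnS
      have hcard' : (S \ A).card = S.card - m := by
        rw [Finset.card_sdiff_of_subset hAS, hAcard]
      have hSm : m ≤ S.card := hAcard ▸ Finset.card_le_card hAS
      obtain ⟨N', τ', h1, h2, h3, h4⟩ := ih (S \ A).card (by omega) (S \ A) L rfl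
        (fun C hC hch => hL C (hC.trans Finset.sdiff_subset) hch)
      obtain ⟨τ, g1, g2, g3⟩ := gstep lt m S A N' hAcard.le
        (fun a ha => hMnmin a (hAsub ha)) τ' h1 h2 h3
      refine ⟨N' + 1, τ, g1, g2, g3, ?_⟩
      rw [hcard'] at h4
      have : m * (N' + 1) = m * N' + m := by ring
      omega
    · have hlt : Mn.card < m := not_le.1 hfull
      have hpos : 0 < Mn.card := Finset.card_pos.2 hMnne
      have hcard' : (S \ Mn).card = S.card - Mn.card := Finset.card_sdiff_of_subset hMnS
      have hSm : Mn.card ≤ S.card := Finset.card_le_card hMnS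
      obtain ⟨N', τ', h1, h2, h3, h4⟩ := ih (S \ Mn).card (by omega) (S \ Mn) (L - 1) rfl (by
        intro C hC hch
        rcases C.eq_empty_or_nonempty with rfl | ⟨y0, hy0⟩
        · simp
        obtain ⟨a, haC, -, hamin⟩ := exists_min lt hirr htr C (fun _ => True) hy0 trivial
        have haS : a ∈ S := (Finset.mem_sdiff.1 (hC haC)).1
        have haM : a ∉ Mn := (Finset.mem_sdiff.1 (hC haC)).2
        have : ∃ d ∈ S, lt d a := by
          by_contra hcon
          exact haM (Finset.mem_filter.2 ⟨haS, fun u hu hlt => hcon ⟨u, hu, hlt⟩⟩)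
        obtain ⟨d, hdS, hda⟩ := this
        have hbelow : ∀ y ∈ C, lt d y := by
          intro y hy
          by_cases hya : y = a
          · rw [hya]; exact hda
          · rcases hch y hy a haC hya with h | h
            · exact absurd h (hamin y hy trivial)
            · exact htr _ _ _ hda h
        have hdC : d ∉ C := fun h => hirr d (hbelow d h)
        have := hL (insert d C) (by
          intro z hz
          rcases Finset.mem_insert.1 hz with rfl | hz
          · exact hdS
          · exact (Finset.mem_sdiff.1 (hC hz)).1) (by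
          intro x hx y hy hxy
          rcases Finset.mem_insert.1 hx with hxd | hx'
          · rcases Finset.mem_insert.1 hy with hyd | hy'
            · exact absurd (hxd.trans hyd.symm) hxy
            · rw [hxd]; exact Or.inl (hbelow y hy')
          · rcases Finset.mem_insert.1 hy with hyd | hy'
            · rw [hyd]; exact Or.inr (hbelow x hx')
            · exact hch x hx' y hy' hxy)
        rw [Finset.card_insert_of_notMem hdC] at this
        omega)
      obtain ⟨τ, g1, g2, g3⟩ := gstep lt m S Mn N' hlt.le hMnmin τ' h1 h2 h3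
      refine ⟨N' + 1, τ, g1, g2, g3, ?_⟩
      rw [hcard'] at h4
      have e1 : m * (N' + 1) = m * N' + m := by ring
      obtain ⟨L', rfl⟩ : ∃ L', L = L' + 1 := ⟨L - 1, by omega⟩
      obtain ⟨m', rfl⟩ : ∃ m', m = m' + 1 := ⟨m - 1, by omega⟩
      simp only [Nat.add_sub_cancel] at h4 ⊢
      have e2 : m' * (L' + 1) = m' * L' + m' := by ring
      omega

end G

/-- a packing into `T` antichains of size at most `m` gives an `m`-machine schedule of some length
`N` with `m N ≤ (2 m - 1) T` (Graham's greedy bound against the order-free bound). -/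
theorem graham_packing {V : Type*} [Fintype V] [DecidableEq V] (E : V → V → Prop) (hE : Acyclic E)
    (m T : ℕ) (hm : 1 ≤ m) (σ : V → ℕ) (hσ : IsAntichainPacking m T E σ) :
    ∃ N τ, IsSchedule m N E τ ∧ m * N ≤ (2 * m - 1) * T := by
  classical
  obtain ⟨hrange, hcap, hanti⟩ := hσ
  have hchain : ∀ C ⊆ (Finset.univ : Finset V),
      (∀ x ∈ C, ∀ y ∈ C, x ≠ y → Relation.TransGen E x y ∨ Relation.TransGen E y x) →
      C.card ≤ T := by
    intro C _ hch
    have hinj : Set.InjOn σ (C : Set V) := by
      intro x hx y hy hxy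
      by_contra hne
      rcases hch x hx y hy hne with h | h
      · exact hanti x y h hxy
      · exact hanti y x h hxy.symm
    calc C.card = (C.image σ).card := (Finset.card_image_of_injOn hinj).symm
      _ ≤ (Finset.Icc 1 T).card := by
          apply Finset.card_le_card
          intro t ht
          obtain ⟨v, _, rfl⟩ := Finset.mem_image.1 ht
          exact Finset.mem_Icc.2 (hrange v)
      _ = T := by simp
  have hn : (Finset.univ : Finset V).card ≤ m * T := by
    have h1 : (Finset.univ : Finset V).card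
        = ∑ t ∈ Finset.Icc 1 T, (Finset.univ.filter (fun v => σ v = t)).card :=
      Finset.card_eq_sum_card_fiberwise (fun v _ => Finset.mem_coe.2 (Finset.mem_Icc.2 (hrange v)))
    rw [h1]
    calc ∑ t ∈ Finset.Icc 1 T, (Finset.univ.filter (fun v => σ v = t)).card
        ≤ ∑ _t ∈ Finset.Icc 1 T, m := Finset.sum_le_sum (fun t _ => hcap t)
      _ = m * T := by simp [mul_comm]
  obtain ⟨N, τ, h1, h2, h3, h4⟩ := graham_core (Relation.TransGen E) hE
    (fun _ _ _ h h' => Relation.TransGen.trans h h') m hm _ Finset.univ T rfl hchain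
  refine ⟨N, τ, ⟨fun v => h1 v (Finset.mem_univ v), h2,
    fun u v huv => h3 u (Finset.mem_univ u) v (Finset.mem_univ v) (Relation.TransGen.single huv)⟩, ?_⟩
  obtain ⟨m', rfl⟩ : ∃ m', m = m' + 1 := ⟨m - 1, by omega⟩
  have e1 : (2 * (m' + 1) - 1) * T = (m' + 1) * T + m' * T := by
    have : 2 * (m' + 1) - 1 = (m' + 1) + m' := by omega
    rw [this]; ring
  simp only [Nat.add_sub_cancel] at h4
  omega

end Vale.Agent.Lib.P324
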