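import Vale.Agent.Lib.P324.TwoFinal

namespace Vale.Agent.Lib.P324

/-- more machines never hurt -/
theorem schedule_mono {V : Type*} [Fintype V] {m m' T : ℕ} {E : V → V → Prop} {τ : V → ℕ}
    (hm : m ≤ m') (h : IsSchedule m T E τ) : IsSchedule m' T E τ :=
  ⟨h.1, fun t => le_trans (h.2.1 t) hm, h.2.2⟩

/-- splitting every class of size at most three into a singleton and a class of size at most two -/
theorem split_three {n T : ℕ} {E : Fin n → Fin n → Prop} {σ : Fin n → ℕ}
    (h : IsAntichainPacking 3 T E σ) : ∃ σ', IsAntichainPacking 2 (2 * T) E σ' := by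
  classical
  obtain ⟨h1, h2, h3⟩ := h
  refine ⟨fun v => if (∀ u, σ u = σ v → v ≤ u) then 2 * σ v - 1 else 2 * σ v, ?_, ?_, ?_⟩
  · intro v
    have := h1 v
    dsimp only
    split_ifs <;> omega
  · intro t
    beta_reduce
    rcases Nat.even_or_odd' t with ⟨s, rfl | rfl⟩
    · -- even slot
      by_cases hne : (Finset.univ.filter (fun v => σ v = s)).Nonempty
      · set w := (Finset.univ.filter (fun v => σ v = s)).min' hne with hw
        have hwmem : w ∈ Finset.univ.filter (fun v => σ v = s) := Finset.min'_mem _ hne
        have hws : σ w = s := (Finset.mem_filter.1 hwmem).2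
        have hsub : (Finset.univ.filter (fun v : Fin n =>
            (if (∀ u, σ u = σ v → v ≤ u) then 2 * σ v - 1 else 2 * σ v) = 2 * s)) ⊆
            (Finset.univ.filter (fun v => σ v = s)).erase w := by
          intro v hv
          have hv' := (Finset.mem_filter.1 hv).2
          have h1v := h1 v
          by_cases hc : (∀ u, σ u = σ v → v ≤ u)
          · rw [if_pos hc] at hv'
            omega
          · rw [if_neg hc] at hv'
            have hvs : σ v = s := by omega
            refine Finset.mem_erase.2 ⟨?_, Finset.mem_filter.2 ⟨Finset.mem_univ _, hvs⟩⟩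
            rintro rfl
            apply hc
            intro u hu
            exact Finset.min'_le _ _ (Finset.mem_filter.2 ⟨Finset.mem_univ _, by omega⟩)
        have hc1 := Finset.card_le_card hsub
        rw [Finset.card_erase_of_mem hwmem] at hc1
        have := h2 s
        omega
      · have hsub : (Finset.univ.filter (fun v : Fin n =>
            (if (∀ u, σ u = σ v → v ≤ u) then 2 * σ v - 1 else 2 * σ v) = 2 * s)) ⊆ ∅ := by
          intro v hv
          have hv' := (Finset.mem_filter.1 hv).2
          have h1v := h1 v
          exfalso
          apply hne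
          refine ⟨v, Finset.mem_filter.2 ⟨Finset.mem_univ _, ?_⟩⟩
          by_cases hc : (∀ u, σ u = σ v → v ≤ u)
          · rw [if_pos hc] at hv'
            omega
          · rw [if_neg hc] at hv'
            omega
        have hc1 := Finset.card_le_card hsub
        simp only [Finset.card_empty] at hc1
        omega
    · -- odd slot
      have : (Finset.univ.filter (fun v : Fin n =>
            (if (∀ u, σ u = σ v → v ≤ u) then 2 * σ v - 1 else 2 * σ v) = 2 * s + 1)).card ≤ 1 := by
        rw [Finset.card_le_one]
        intro a ha b hb
        have ha' := (Finset.mem_filter.1 ha).2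
        have hb' := (Finset.mem_filter.1 hb).2
        have h1a := h1 a
        have h1b := h1 b
        by_cases hca : (∀ u, σ u = σ a → a ≤ u)
        · by_cases hcb : (∀ u, σ u = σ b → b ≤ u)
          · rw [if_pos hca] at ha'
            rw [if_pos hcb] at hb'
            exact le_antisymm (hca b (by omega)) (hcb a (by omega))
          · rw [if_neg hcb] at hb'
            omega
        · rw [if_neg hca] at ha'
          omega
      omega
  · intro u v huv
    have := h3 u v huv
    have := h1 u
    have := h1 v
    dsimp only
    split_ifs <;> omega

/-- a packing into `T` antichains of size at most three gives a three-machine schedule of length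
`2 T`. -/
theorem three_upper {n T : ℕ} {E : Fin n → Fin n → Prop} (hE : Acyclic E) {σ : Fin n → ℕ}
    (h : IsAntichainPacking 3 T E σ) : ∃ τ, IsSchedule 3 (2 * T) E τ := by
  obtain ⟨σ', h'⟩ := split_three h
  obtain ⟨τ, hτ⟩ := two_machines_final E hE (2 * T) σ' h'
  exact ⟨τ, schedule_mono (by norm_num) hτ⟩

end Vale.Agent.Lib.P324
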