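import Vale.Agent.Lib.P324.Defs

namespace Vale.Agent.Lib.P324

/-- arcs of the gap instance on the natural numbers: blocks of six jobs `6b,...,6b+5`; inside a
block `0,1 → 4` and `2,3 → 5`; every job of a block precedes every job of all later blocks -/
def gapRel (u v : ℕ) : Prop :=
  u / 6 < v / 6 ∨ (u / 6 = v / 6 ∧ ((u % 6 ≤ 1 ∧ v % 6 = 4) ∨ (2 ≤ u % 6 ∧ u % 6 ≤ 3 ∧ v % 6 = 5)))

/-- the gap instance with `6k` jobs -/
def gapE (k : ℕ) (u v : Fin (6 * k)) : Prop := gapRel u.val v.val

/-- the antichain packing: classes `{0,1,5}` and `{2,3,4}` of every block -/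
def gapSigma (u : ℕ) : ℕ := 2 * (u / 6) + (if u % 6 ≤ 1 ∨ u % 6 = 5 then 1 else 2)

/-- the optimal schedule: slots `{0,1,2}`, `{3,4}`, `{5}` in every block -/
def gapTau (u : ℕ) : ℕ := 3 * (u / 6) + (if u % 6 ≤ 2 then 1 else if u % 6 ≤ 4 then 2 else 3)

lemma gapRel_lt {u v : ℕ} (h : gapRel u v) : u < v := by
  unfold gapRel at h
  omega

lemma gap_trans {k : ℕ} {u v : Fin (6 * k)} (h : Relation.TransGen (gapE k) u v) :
    gapRel u.val v.val := by
  induction h with
  | single h => exact h
  | tail _ h2 ih =>
    unfold gapE at h2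
    unfold gapRel at *
    omega

lemma gap_acyclic (k : ℕ) : Acyclic (gapE k) := by
  intro v h
  exact lt_irrefl _ (gapRel_lt (gap_trans h))

lemma card_fiber_le {k : ℕ} (f : ℕ → ℕ) (t : ℕ) (A : Finset ℕ)
    (hA : ∀ u : ℕ, f u = t → u % 6 ∈ A) (hb : ∀ u v : ℕ, f u = t → f v = t → u / 6 = v / 6) :
    (Finset.univ.filter (fun v : Fin (6 * k) => f v.val = t)).card ≤ A.card := by
  apply Finset.card_le_card_of_injOn (fun v => v.val % 6)
  · intro v hv
    have hv' : f v.val = t := by simpa using hv
    exact hA _ hv'
  · intro u hu v hv huv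
    have hu' : f u.val = t := by simpa using hu
    have hv' : f v.val = t := by simpa using hv
    have h1 := hb _ _ hu' hv'
    have h2 : u.val % 6 = v.val % 6 := huv
    apply Fin.ext
    omega

lemma gap_packing (k : ℕ) : IsAntichainPacking 3 (2 * k) (gapE k) (fun v => gapSigma v.val) := by
  refine ⟨?_, ?_, ?_⟩
  · intro v
    have hv := v.isLt
    simp only [gapSigma]
    split_ifs <;> omega
  · intro t
    by_cases ht : t % 2 = 1
    · have := card_fiber_le (k := k) gapSigma t {0, 1, 5}
        (by
          intro u hu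
          unfold gapSigma at hu
          simp only [Finset.mem_insert, Finset.mem_singleton]
          split_ifs at hu <;> omega)
        (by
          intro u v hu hv
          unfold gapSigma at hu hv
          split_ifs at hu hv <;> omega)
      simpa using this
    · have := card_fiber_le (k := k) gapSigma t {2, 3, 4}
        (by
          intro u hu
          unfold gapSigma at hu
          simp only [Finset.mem_insert, Finset.mem_singleton]
          split_ifs at hu <;> omega)
        (by
          intro u v hu hv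
          unfold gapSigma at hu hv
          split_ifs at hu hv <;> omega)
      simpa using this
  · intro u v h
    have h' := gap_trans h
    unfold gapRel at h'
    simp only [gapSigma]
    split_ifs <;> omega

lemma gap_schedule (k : ℕ) : IsSchedule 3 (3 * k) (gapE k) (fun v => gapTau v.val) := by
  refine ⟨?_, ?_, ?_⟩
  · intro v
    have hv := v.isLt
    simp only [gapTau]
    split_ifs <;> omega
  · intro t
    have := card_fiber_le (k := k) gapTau t
      (if t % 3 = 1 then {0, 1, 2} else if t % 3 = 2 then {3, 4} else {5})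
      (by
        intro u hu
        unfold gapTau at hu
        split_ifs at hu ⊢ <;> simp only [Finset.mem_insert, Finset.mem_singleton] <;> omega)
      (by
        intro u v hu hv
        unfold gapTau at hu hv
        split_ifs at hu hv <;> omega)
    refine this.trans ?_
    split_ifs <;> simp
  · intro u v h
    unfold gapE gapRel at h
    simp only [gapTau]
    split_ifs <;> omega

lemma gap_block_step {k T : ℕ} {τ : Fin (6 * k) → ℕ} (h : IsSchedule 3 T (gapE k) τ) {b : ℕ}
    (hb : b < k) (hlow : ∀ v : Fin (6 * k), v.val / 6 = b → 3 * b + 1 ≤ τ v) :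
    ∃ v : Fin (6 * k), v.val / 6 = b ∧ 3 * (b + 1) ≤ τ v := by
  by_contra hcon
  have hup : ∀ v : Fin (6 * k), v.val / 6 = b → τ v ≤ 3 * b + 2 := by
    intro v hv
    by_contra hlt
    exact hcon ⟨v, hv, by omega⟩
  obtain ⟨_, hcard, harc⟩ := h
  have key : ∀ i : ℕ, ∀ hi : i < 4, τ ⟨6 * b + i, by omega⟩ = 3 * b + 1 := by
    intro i hi
    have h1 := hlow ⟨6 * b + i, by omega⟩ (by show (6 * b + i) / 6 = b; omega)
    by_cases hi2 : i ≤ 1
    · have h2 := harc ⟨6 * b + i, by omega⟩ ⟨6 * b + 4, by omega⟩
        (by
          show gapRel (6 * b + i) (6 * b + 4)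
          unfold gapRel
          omega)
      have h3 := hup ⟨6 * b + 4, by omega⟩ (by show (6 * b + 4) / 6 = b; omega)
      omega
    · have h2 := harc ⟨6 * b + i, by omega⟩ ⟨6 * b + 5, by omega⟩
        (by
          show gapRel (6 * b + i) (6 * b + 5)
          unfold gapRel
          omega)
      have h3 := hup ⟨6 * b + 5, by omega⟩ (by show (6 * b + 5) / 6 = b; omega)
      omega
  let g : Fin 4 → Fin (6 * k) := fun i => ⟨6 * b + i.val, by have := i.isLt; omega⟩
  have hg : Function.Injective g := by
    intro i j hij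
    have : 6 * b + i.val = 6 * b + j.val := congrArg Fin.val hij
    apply Fin.ext
    omega
  have hsub : Finset.univ.image g ⊆ Finset.univ.filter (fun v => τ v = 3 * b + 1) := by
    intro v hv
    obtain ⟨i, _, rfl⟩ := Finset.mem_image.mp hv
    simp only [Finset.mem_filter, Finset.mem_univ, true_and]
    exact key i.val i.isLt
  have h4 : (Finset.univ.image g).card = 4 := by
    rw [Finset.card_image_of_injective _ hg]
    simp
  have := Finset.card_le_card hsub
  have := hcard (3 * b + 1)
  omega

lemma gap_lower_aux {k T : ℕ} {τ : Fin (6 * k) → ℕ} (h : IsSchedule 3 T (gapE k) τ) :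
    ∀ b, b < k → ∃ v : Fin (6 * k), v.val / 6 = b ∧ 3 * (b + 1) ≤ τ v := by
  intro b
  induction b with
  | zero =>
    intro hb
    apply gap_block_step h hb
    intro v _
    have := (h.1 v).1
    omega
  | succ b ih =>
    intro hb
    obtain ⟨w, hw, hw2⟩ := ih (by omega)
    apply gap_block_step h hb
    intro v hv
    have := h.2.2 w v (by
      show gapRel w.val v.val
      unfold gapRel
      omega)
    omega

lemma gap_lower {k T : ℕ} {τ : Fin (6 * k) → ℕ} (h : IsSchedule 3 T (gapE k) τ) : 3 * k ≤ T := by
  rcases Nat.eq_zero_or_pos k with hk | hk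
  · omega
  · obtain ⟨v, _, hv⟩ := gap_lower_aux h (k - 1) (by omega)
    have := (h.1 v).2
    omega

/-- every schedule is an antichain packing (so the packing number is a lower bound) -/
lemma schedule_packing {V : Type*} [Fintype V] {m T : ℕ} {E : V → V → Prop} {τ : V → ℕ}
    (h : IsSchedule m T E τ) : IsAntichainPacking m T E τ := by
  refine ⟨h.1, h.2.1, ?_⟩
  intro u v huv
  have : τ u < τ v := by
    induction huv with
    | single h1 => exact h.2.2 _ _ h1
    | tail _ h2 ih => exact ih.trans (h.2.2 _ _ h2)
  omega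

/-- counting bound: `T` classes of size at most `m` hold at most `m T` jobs -/
lemma packing_card {V : Type*} [Fintype V] {m T : ℕ} {E : V → V → Prop} {σ : V → ℕ}
    (h : IsAntichainPacking m T E σ) : Fintype.card V ≤ m * T := by
  classical
  have h1 : (Finset.univ : Finset V).card
      = ∑ t ∈ Finset.Icc 1 T, (Finset.univ.filter (fun v => σ v = t)).card := by
    apply Finset.card_eq_sum_card_fiberwise
    intro v _
    exact Finset.mem_coe.mpr (Finset.mem_Icc.mpr (h.1 v))
  have h2 : ∑ t ∈ Finset.Icc 1 T, (Finset.univ.filter (fun v => σ v = t)).card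
      ≤ ∑ _t ∈ Finset.Icc 1 T, m := Finset.sum_le_sum (fun t _ => h.2.1 t)
  have h3 : ∑ _t ∈ Finset.Icc 1 T, m = m * T := by
    simp [mul_comm]
  rw [← Finset.card_univ]
  omega

lemma gap_packing_lower {k T : ℕ} {σ : Fin (6 * k) → ℕ}
    (h : IsAntichainPacking 3 T (gapE k) σ) : 2 * k ≤ T := by
  have := packing_card h
  simp at this
  omega

end Vale.Agent.Lib.P324
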