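import Vale.Agent.Lib.P324.Defs

namespace Vale.Agent.Lib.P324

namespace TwoCoreB

variable {V : Type*} [DecidableEq V]

theorem exists_min (lt : V → V → Prop)
    (hirr : ∀ v, ¬ lt v v) (htr : ∀ u v w, lt u v → lt v w → lt u w) (B : Finset V) :
    B.Nonempty → ∃ b ∈ B, ∀ u ∈ B, ¬ lt u b := by
  classical
  induction B using Finset.induction_on with
  | empty => intro h; exact absurd h Finset.not_nonempty_empty
  | insert a B ha ih =>
    intro _
    rcases B.eq_empty_or_nonempty with rfl | hB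
    · refine ⟨a, by simp, ?_⟩
      intro u hu
      simp only [insert_empty_eq, Finset.mem_singleton] at hu
      subst hu
      exact hirr _
    · obtain ⟨b, hb, hmin⟩ := ih hB
      by_cases hab : lt a b
      · refine ⟨a, Finset.mem_insert_self _ _, ?_⟩
        intro u hu
        rcases Finset.mem_insert.1 hu with rfl | hu
        · exact hirr _
        · intro hua
          exact hmin u hu (htr _ _ _ hua hab)
      · refine ⟨b, Finset.mem_insert_of_mem hb, ?_⟩
        intro u hu
        rcases Finset.mem_insert.1 hu with rfl | hu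
        · exact hab
        · exact hmin u hu

theorem descend (lt : V → V → Prop)
    (hirr : ∀ v, ¬ lt v v) (htr : ∀ u v w, lt u v → lt v w → lt u w) (S : Finset V)
    (x : V) (hx : x ∈ S) :
    ∃ m ∈ S, (m = x ∨ lt m x) ∧ ∀ u ∈ S, ¬ lt u m := by
  classical
  obtain ⟨m, hm, hmin⟩ := exists_min lt hirr htr (S.filter (fun u => u = x ∨ lt u x))
    ⟨x, Finset.mem_filter.2 ⟨hx, Or.inl rfl⟩⟩
  obtain ⟨hmS, hmx⟩ := Finset.mem_filter.1 hm
  refine ⟨m, hmS, hmx, ?_⟩
  intro u hu hum
  apply hmin u _ hum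
  refine Finset.mem_filter.2 ⟨hu, Or.inr ?_⟩
  rcases hmx with rfl | hmx
  · exact hum
  · exact htr _ _ _ hum hmx

theorem three (S : Finset V) (σ : V → ℕ) (t : ℕ)
    (h : (S.filter (fun v => σ v = t)).card ≤ 2) {x y z : V} (hx : x ∈ S) (hy : y ∈ S)
    (hz : z ∈ S) (sx : σ x = t) (sy : σ y = t) (sz : σ z = t) (hxy : x ≠ y) :
    z = x ∨ z = y := by
  by_contra hcon
  rw [not_or] at hcon
  have hsub : ({x, y, z} : Finset V) ⊆ S.filter (fun v => σ v = t) := by
    intro w hw
    simp only [Finset.mem_insert, Finset.mem_singleton] at hw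
    rcases hw with rfl | rfl | rfl
    · exact Finset.mem_filter.2 ⟨hx, sx⟩
    · exact Finset.mem_filter.2 ⟨hy, sy⟩
    · exact Finset.mem_filter.2 ⟨hz, sz⟩
  have h3 : ({x, y, z} : Finset V).card = 3 :=
    Finset.card_eq_three.2 ⟨x, y, z, hxy, fun h => hcon.1 h.symm, fun h => hcon.2 h.symm, rfl⟩
  have := Finset.card_le_card hsub
  omega

omit [DecidableEq V] in
theorem image_card_lt (S S' : Finset V) (σ σ' : V → ℕ) (a : V) (ha : a ∈ S)
    (h : ∀ v ∈ S', σ' v ∈ S.image σ ∧ σ' v ≠ σ a) :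
    (S'.image σ').card + 1 ≤ (S.image σ).card := by
  have hmem : σ a ∈ S.image σ := Finset.mem_image_of_mem σ ha
  have hsub : S'.image σ' ⊆ (S.image σ).erase (σ a) := by
    intro t ht
    obtain ⟨v, hv, rfl⟩ := Finset.mem_image.1 ht
    exact Finset.mem_erase.2 ⟨(h v hv).2, (h v hv).1⟩
  have h1 := Finset.card_le_card hsub
  rw [Finset.card_erase_of_mem hmem] at h1
  have h2 : 0 < (S.image σ).card := Finset.card_pos.2 ⟨_, hmem⟩
  omega

theorem step (lt : V → V → Prop) (S A : Finset V) (M N : ℕ) (τ' : V → ℕ)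
    (hA2 : A.card ≤ 2) (hmin : ∀ a ∈ A, ∀ u ∈ S, ¬ lt u a) (hMN : M + 1 ≤ N)
    (h1 : ∀ v ∈ S \ A, 1 ≤ τ' v ∧ τ' v ≤ M)
    (h2 : ∀ t, ((S \ A).filter (fun v => τ' v = t)).card ≤ 2)
    (h3 : ∀ u ∈ S \ A, ∀ v ∈ S \ A, lt u v → τ' u < τ' v) :
    ∃ τ : V → ℕ, (∀ v ∈ S, 1 ≤ τ v ∧ τ v ≤ N) ∧
      (∀ t, (S.filter (fun v => τ v = t)).card ≤ 2) ∧
      (∀ u ∈ S, ∀ v ∈ S, lt u v → τ u < τ v) := by
  refine ⟨fun v => if v ∈ A then 1 else τ' v + 1, ?_, ?_, ?_⟩
  · intro v hv
    by_cases hvA : v ∈ A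
    · simp only [if_pos hvA]
      omega
    · simp only [if_neg hvA]
      have := h1 v (Finset.mem_sdiff.2 ⟨hv, hvA⟩)
      omega
  · intro t
    by_cases ht : t = 1
    · refine le_trans (Finset.card_le_card ?_) hA2
      intro v hv
      obtain ⟨hvS, hvt⟩ := Finset.mem_filter.1 hv
      by_contra hvA
      simp only [if_neg hvA] at hvt
      have := h1 v (Finset.mem_sdiff.2 ⟨hvS, hvA⟩)
      omega
    · refine le_trans (Finset.card_le_card ?_) (h2 (t - 1))
      intro v hv
      obtain ⟨hvS, hvt⟩ := Finset.mem_filter.1 hv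
      by_cases hvA : v ∈ A
      · simp only [if_pos hvA] at hvt
        exact absurd hvt.symm ht
      · simp only [if_neg hvA] at hvt
        refine Finset.mem_filter.2 ⟨Finset.mem_sdiff.2 ⟨hvS, hvA⟩, ?_⟩
        omega
  · intro u hu v hv huv
    have hvA : v ∉ A := fun hvA => hmin v hvA u hu huv
    have hv' := Finset.mem_sdiff.2 ⟨hv, hvA⟩
    by_cases huA : u ∈ A
    · simp only [if_pos huA, if_neg hvA]
      have := h1 v hv'
      omega
    · simp only [if_neg huA, if_neg hvA]
      have := h3 u (Finset.mem_sdiff.2 ⟨hu, huA⟩) v hv' huv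
      omega

end TwoCoreB

open TwoCoreB in
/-- Core of the two-machine theorem (Fujii-Kasami-Ninomiya), for a strict order `lt` and a
set `S` of jobs: a splitting of `S` into classes of at most two pairwise incomparable jobs can be
turned into an order-respecting one with the same number of classes. -/
theorem two_coreB {V : Type*} [DecidableEq V] (lt : V → V → Prop)
    (hirr : ∀ v, ¬ lt v v) (htr : ∀ u v w, lt u v → lt v w → lt u w) :
    ∀ (c : ℕ) (S : Finset V) (σ : V → ℕ), S.card = c →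
      (∀ t, (S.filter (fun v => σ v = t)).card ≤ 2) →
      (∀ u ∈ S, ∀ v ∈ S, lt u v → σ u ≠ σ v) →
      ∃ τ : V → ℕ, (∀ v ∈ S, 1 ≤ τ v ∧ τ v ≤ (S.image σ).card) ∧
        (∀ t, (S.filter (fun v => τ v = t)).card ≤ 2) ∧
        (∀ u ∈ S, ∀ v ∈ S, lt u v → τ u < τ v) := by
  classical
  intro c
  induction c using Nat.strong_induction_on with
  | _ c ih =>
  intro S σ hc hcl hanti
  -- the reduction: remove a set `A` of minimal jobs and change the splitting to `σ'`
  have red : ∀ (A : Finset V) (σ' : V → ℕ) (a : V), a ∈ A → A ⊆ S → A.card ≤ 2 →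
      (∀ x ∈ A, ∀ u ∈ S, ¬ lt u x) →
      (∀ t, ((S \ A).filter (fun v => σ' v = t)).card ≤ 2) →
      (∀ u ∈ S \ A, ∀ v ∈ S \ A, lt u v → σ' u ≠ σ' v) →
      (∀ v ∈ S \ A, σ' v ∈ S.image σ ∧ σ' v ≠ σ a) →
      ∃ τ : V → ℕ, (∀ v ∈ S, 1 ≤ τ v ∧ τ v ≤ (S.image σ).card) ∧
        (∀ t, (S.filter (fun v => τ v = t)).card ≤ 2) ∧
        (∀ u ∈ S, ∀ v ∈ S, lt u v → τ u < τ v) := by
    intro A σ' a haA hAS hA2 hmin hcl' hanti' himg
    have hlt : (S \ A).card < c := by
      rw [← hc]
      exact Finset.card_lt_card (Finset.sdiff_ssubset hAS ⟨a, haA⟩)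
    obtain ⟨τ', t1, t2, t3⟩ := ih _ hlt (S \ A) σ' rfl hcl' hanti'
    exact step lt S A _ _ τ' hA2 hmin (image_card_lt S (S \ A) σ σ' a (hAS haA) himg) t1 t2 t3
  -- restriction of the old splitting to a subset
  have hclsub : ∀ (A : Finset V) (t : ℕ), ((S \ A).filter (fun v => σ v = t)).card ≤ 2 := by
    intro A t
    exact le_trans (Finset.card_le_card (Finset.filter_subset_filter _ Finset.sdiff_subset))
      (hcl t)
  have hantisub : ∀ (A : Finset V), ∀ u ∈ S \ A, ∀ v ∈ S \ A, lt u v → σ u ≠ σ v := by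
    intro A u hu v hv
    exact hanti u (Finset.mem_sdiff.1 hu).1 v (Finset.mem_sdiff.1 hv).1
  rcases S.eq_empty_or_nonempty with rfl | hSne
  · exact ⟨fun _ => 0, by simp, by simp, by simp⟩
  by_cases h1 : ∃ a ∈ S, (∀ u ∈ S, ¬ lt u a) ∧ ∀ b ∈ S, σ b = σ a → b = a
  · -- a minimal job alone in its class
    obtain ⟨a, haS, hamin, halone⟩ := h1
    refine red {a} σ a (Finset.mem_singleton_self a) (Finset.singleton_subset_iff.2 haS)
      (by simp) ?_ (hclsub _) (hantisub _) ?_
    · intro x hx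
      rw [Finset.mem_singleton.1 hx]
      exact hamin
    · intro v hv
      obtain ⟨hvS, hva⟩ := Finset.mem_sdiff.1 hv
      refine ⟨Finset.mem_image_of_mem σ hvS, ?_⟩
      intro h
      exact hva (Finset.mem_singleton.2 (halone v hvS h))
  by_cases h2 : ∃ a ∈ S, ∃ b ∈ S, (∀ u ∈ S, ¬ lt u a) ∧ (∀ u ∈ S, ¬ lt u b) ∧ a ≠ b ∧ σ a = σ b
  · -- two minimal jobs in one class
    obtain ⟨a, haS, b, hbS, hamin, hbmin, hab, hsab⟩ := h2
    refine red {a, b} σ a (Finset.mem_insert_self a _) ?_ Finset.card_le_two ?_ (hclsub _)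
      (hantisub _) ?_
    · intro x hx
      rcases Finset.mem_insert.1 hx with rfl | hx
      · exact haS
      · rw [Finset.mem_singleton.1 hx]
        exact hbS
    · intro x hx
      rcases Finset.mem_insert.1 hx with rfl | hx
      · exact hamin
      · rw [Finset.mem_singleton.1 hx]
        exact hbmin
    · intro v hv
      obtain ⟨hvS, hvA⟩ := Finset.mem_sdiff.1 hv
      refine ⟨Finset.mem_image_of_mem σ hvS, ?_⟩
      intro h
      apply hvA
      rcases three S σ (σ a) (hcl _) haS hbS hvS rfl hsab.symm h hab with rfl | rfl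
      · exact Finset.mem_insert_self _ _
      · exact Finset.mem_insert_of_mem (Finset.mem_singleton_self _)
  -- the exchange case
  push Not at h1 h2
  set B : Finset V := S.filter (fun x => ∃ a ∈ S, (∀ u ∈ S, ¬ lt u a) ∧ a ≠ x ∧ σ a = σ x)
    with hB
  have hBne : B.Nonempty := by
    obtain ⟨x, hx⟩ := hSne
    obtain ⟨m, hmS, _, hmmin⟩ := descend lt hirr htr S x hx
    obtain ⟨b, hbS, hsb, hbm⟩ := h1 m hmS hmmin
    exact ⟨b, Finset.mem_filter.2 ⟨hbS, m, hmS, hmmin, fun h => hbm h.symm, hsb.symm⟩⟩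
  obtain ⟨b, hbB, hbmin⟩ := exists_min lt hirr htr B hBne
  obtain ⟨hbS, a, haS, hamin, hab, hsab⟩ := Finset.mem_filter.1 hbB
  have hbnot : ∃ u ∈ S, lt u b := by
    by_contra hcon
    push Not at hcon
    exact h2 a haS b hbS hamin hcon hab hsab
  obtain ⟨u0, hu0S, hu0b⟩ := hbnot
  obtain ⟨a2, ha2S, ha2u, ha2min⟩ := descend lt hirr htr S u0 hu0S
  have ha2b : lt a2 b := by
    rcases ha2u with rfl | h
    · exact hu0b
    · exact htr _ _ _ h hu0b
  have hs2b : σ a2 ≠ σ b := hanti a2 ha2S b hbS ha2b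
  have hs2a : σ a2 ≠ σ a := by rw [hsab]; exact hs2b
  refine red {a, a2} (fun v => if v = b then σ a2 else σ v) a (Finset.mem_insert_self a _) ?_
    Finset.card_le_two ?_ ?_ ?_ ?_
  · intro x hx
    rcases Finset.mem_insert.1 hx with rfl | hx
    · exact haS
    · rw [Finset.mem_singleton.1 hx]
      exact ha2S
  · intro x hx
    rcases Finset.mem_insert.1 hx with rfl | hx
    · exact hamin
    · rw [Finset.mem_singleton.1 hx]
      exact ha2min
  · -- class sizes
    intro t
    by_cases ht : t = σ a2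
    · have hsub : (S \ {a, a2}).filter (fun v => (if v = b then σ a2 else σ v) = t) ⊆
          insert b ((S.filter (fun v => σ v = t)).erase a2) := by
        intro v hv
        obtain ⟨hvS', hvt⟩ := Finset.mem_filter.1 hv
        obtain ⟨hvS, hvA⟩ := Finset.mem_sdiff.1 hvS'
        by_cases hvb : v = b
        · rw [hvb]
          exact Finset.mem_insert_self _ _
        · simp only [if_neg hvb] at hvt
          refine Finset.mem_insert_of_mem (Finset.mem_erase.2 ⟨?_, Finset.mem_filter.2 ⟨hvS, hvt⟩⟩)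
          intro h
          apply hvA
          rw [h]
          exact Finset.mem_insert_of_mem (Finset.mem_singleton_self _)
      have h3 := Finset.card_le_card hsub
      have h4 := Finset.card_insert_le b ((S.filter (fun v => σ v = t)).erase a2)
      have h5 : a2 ∈ S.filter (fun v => σ v = t) := Finset.mem_filter.2 ⟨ha2S, ht.symm⟩
      rw [Finset.card_erase_of_mem h5] at h4
      have h6 := hcl t
      omega
    · refine le_trans (Finset.card_le_card ?_) (hcl t)
      intro v hv
      obtain ⟨hvS', hvt⟩ := Finset.mem_filter.1 hv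
      obtain ⟨hvS, hvA⟩ := Finset.mem_sdiff.1 hvS'
      by_cases hvb : v = b
      · simp only [if_pos hvb] at hvt
        exact absurd hvt.symm ht
      · simp only [if_neg hvb] at hvt
        exact Finset.mem_filter.2 ⟨hvS, hvt⟩
  · -- classes are antichains
    intro u hu v hv huv heq
    obtain ⟨huS, huA⟩ := Finset.mem_sdiff.1 hu
    obtain ⟨hvS, hvA⟩ := Finset.mem_sdiff.1 hv
    by_cases hub : u = b
    · by_cases hvb : v = b
      · rw [hub, hvb] at huv
        exact hirr _ huv
      · simp only [if_pos hub, if_neg hvb] at heq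
        rw [hub] at huv
        exact hanti a2 ha2S v hvS (htr _ _ _ ha2b huv) heq
    · by_cases hvb : v = b
      · simp only [if_neg hub, if_pos hvb] at heq
        rw [hvb] at huv
        apply hbmin u _ huv
        refine Finset.mem_filter.2 ⟨huS, a2, ha2S, ha2min, ?_, heq.symm⟩
        intro h
        apply huA
        rw [← h]
        exact Finset.mem_insert_of_mem (Finset.mem_singleton_self _)
      · simp only [if_neg hub, if_neg hvb] at heq
        exact hanti u huS v hvS huv heq
  · -- the class of `a` disappears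
    intro v hv
    obtain ⟨hvS, hvA⟩ := Finset.mem_sdiff.1 hv
    by_cases hvb : v = b
    · simp only [if_pos hvb]
      exact ⟨Finset.mem_image_of_mem σ ha2S, hs2a⟩
    · simp only [if_neg hvb]
      refine ⟨Finset.mem_image_of_mem σ hvS, ?_⟩
      intro h
      rcases three S σ (σ a) (hcl _) haS hbS hvS rfl hsab.symm h hab with h' | h'
      · apply hvA
        rw [h']
        exact Finset.mem_insert_self _ _
      · exact hvb h'

end Vale.Agent.Lib.P324
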