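import Vale.Agent.Lib.P324.TwoMachines

namespace Vale.Agent.Lib.P324

/-- Two machines: the unordered relaxation is exact (derived from `two_core`). -/
theorem two_machines_final {V : Type*} [Fintype V] [DecidableEq V] (E : V → V → Prop)
    (hE : Acyclic E) (T : ℕ) (σ : V → ℕ) (hσ : IsAntichainPacking 2 T E σ) :
    ∃ τ, IsSchedule 2 T E τ := by
  obtain ⟨hrange, hcap, hanti⟩ := hσ
  obtain ⟨τ, h1, h2, h3⟩ := two_core (Relation.TransGen E) hE
    (fun _ _ _ h h' => Relation.TransGen.trans h h') (Finset.univ : Finset V).card Finset.univ σ rfl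
    hcap (fun u _ v _ huv => hanti u v huv)
  have hcard : ((Finset.univ : Finset V).image σ).card ≤ T := by
    have hsub : (Finset.univ : Finset V).image σ ⊆ Finset.Icc 1 T := by
      intro t ht
      obtain ⟨v, _, rfl⟩ := Finset.mem_image.1 ht
      exact Finset.mem_Icc.2 (hrange v)
    calc ((Finset.univ : Finset V).image σ).card ≤ (Finset.Icc 1 T).card := Finset.card_le_card hsub
      _ = T := by simp
  refine ⟨τ, fun v => ⟨(h1 v (Finset.mem_univ v)).1, le_trans (h1 v (Finset.mem_univ v)).2 hcard⟩,
    h2, fun u v huv => h3 u (Finset.mem_univ u) v (Finset.mem_univ v) (Relation.TransGen.single huv)⟩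

end Vale.Agent.Lib.P324
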