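import Vale.Agent.Lib.P324.Defs

namespace Vale.Agent.Lib.P324

section Core

variable {V : Type*} [DecidableEq V]

/-- a class of at most two elements containing `a ≠ b` contains nothing else -/
theorem class_two {S : Finset V} {σ : V → ℕ}
    (h2 : ∀ t, (S.filter (fun v => σ v = t)).card ≤ 2)
    {a b v : V} (ha : a ∈ S) (hb : b ∈ S) (hv : v ∈ S) (hab : a ≠ b) (hσ : σ b = σ a)
    (hσv : σ v = σ a) : v = a ∨ v = b := by
  by_contra hcon
  obtain ⟨hva, hvb⟩ := not_or.mp hcon
  have hsub : ({a, b, v} : Finset V) ⊆ S.filter (fun v => σ v = σ a) := by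
    intro x hx
    simp only [Finset.mem_insert, Finset.mem_singleton] at hx
    rcases hx with rfl | rfl | rfl
    · exact Finset.mem_filter.mpr ⟨ha, rfl⟩
    · exact Finset.mem_filter.mpr ⟨hb, hσ⟩
    · exact Finset.mem_filter.mpr ⟨hv, hσv⟩
  have hc : ({a, b, v} : Finset V).card = 3 :=
    Finset.card_eq_three.mpr ⟨a, b, v, hab, fun h => hva h.symm, fun h => hvb h.symm, rfl⟩
  have := (Finset.card_le_card hsub).trans (h2 (σ a))
  omega

omit [DecidableEq V] in
/-- a nonempty part of a finite set has a minimal element -/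
theorem exists_min (lt : V → V → Prop) (hirr : ∀ v, ¬ lt v v)
    (htr : ∀ u v w, lt u v → lt v w → lt u w) (S : Finset V) (P : V → Prop) {x : V}
    (hx : x ∈ S) (hP : P x) : ∃ m ∈ S, P m ∧ ∀ u ∈ S, P u → ¬ lt u m := by
  have wf : WellFounded (fun a b : S => lt a.1 b.1) := by
    have : IsTrans S (fun a b : S => lt a.1 b.1) := ⟨fun a b c => htr _ _ _⟩
    have : Std.Irrefl (fun a b : S => lt a.1 b.1) := ⟨fun a => hirr _⟩
    exact Finite.wellFounded_of_trans_of_irrefl _
  obtain ⟨m, hm, hmin⟩ := wf.has_min {a : S | P a.1} ⟨⟨x, hx⟩, hP⟩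
  exact ⟨m.1, m.2, hm, fun u hu hPu h => hmin ⟨u, hu⟩ hPu h⟩

/-- schedule a set `A` of at most two minimal jobs first, then the rest -/
theorem step (lt : V → V → Prop) (S A : Finset V) (σ σ' : V → ℕ) (x : ℕ)
    (hA2 : A.card ≤ 2) (hAmin : ∀ a ∈ A, ∀ u ∈ S, ¬ lt u a)
    (hx : x ∈ S.image σ) (himg : ∀ v ∈ S \ A, σ' v ∈ S.image σ ∧ σ' v ≠ x)
    (τ' : V → ℕ) (h1 : ∀ v ∈ S \ A, 1 ≤ τ' v ∧ τ' v ≤ ((S \ A).image σ').card)
    (h2 : ∀ t, ((S \ A).filter (fun v => τ' v = t)).card ≤ 2)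
    (h3 : ∀ u ∈ S \ A, ∀ v ∈ S \ A, lt u v → τ' u < τ' v) :
    ∃ τ : V → ℕ, (∀ v ∈ S, 1 ≤ τ v ∧ τ v ≤ (S.image σ).card) ∧
      (∀ t, (S.filter (fun v => τ v = t)).card ≤ 2) ∧
      (∀ u ∈ S, ∀ v ∈ S, lt u v → τ u < τ v) := by
  have hcard : ((S \ A).image σ').card + 1 ≤ (S.image σ).card := by
    have hsub : (S \ A).image σ' ⊆ (S.image σ).erase x := by
      intro y hy
      obtain ⟨v, hv, rfl⟩ := Finset.mem_image.mp hy
      exact Finset.mem_erase.mpr ⟨(himg v hv).2, (himg v hv).1⟩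
    have h := Finset.card_le_card hsub
    rw [Finset.card_erase_of_mem hx] at h
    have hpos : 0 < (S.image σ).card := Finset.card_pos.mpr ⟨x, hx⟩
    omega
  refine ⟨fun v => if v ∈ A then 1 else τ' v + 1, ?_, ?_, ?_⟩
  · intro v hv
    by_cases hvA : v ∈ A
    · simp only [hvA, if_true]
      omega
    · have := h1 v (Finset.mem_sdiff.mpr ⟨hv, hvA⟩)
      simp only [hvA, if_false]
      omega
  · intro t
    by_cases ht : t = 1
    · subst ht
      refine (Finset.card_le_card ?_).trans hA2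
      intro v hv
      obtain ⟨hvS, hvt⟩ := Finset.mem_filter.mp hv
      by_contra hvA
      have := h1 v (Finset.mem_sdiff.mpr ⟨hvS, hvA⟩)
      simp only [hvA, if_false] at hvt
      omega
    · refine (Finset.card_le_card ?_).trans (h2 (t - 1))
      intro v hv
      obtain ⟨hvS, hvt⟩ := Finset.mem_filter.mp hv
      have hvA : v ∉ A := by
        intro hvA
        simp only [hvA, if_true] at hvt
        exact ht hvt.symm
      simp only [hvA, if_false] at hvt
      exact Finset.mem_filter.mpr ⟨Finset.mem_sdiff.mpr ⟨hvS, hvA⟩, by omega⟩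
  · intro u hu v hv huv
    have hvA : v ∉ A := fun hvA => hAmin v hvA u hu huv
    have hv' := Finset.mem_sdiff.mpr ⟨hv, hvA⟩
    by_cases huA : u ∈ A
    · have := h1 v hv'
      simp only [huA, hvA, if_true, if_false]
      omega
    · have := h3 u (Finset.mem_sdiff.mpr ⟨hu, huA⟩) v hv' huv
      simp only [huA, hvA, if_false]
      omega

end Core

/-- Core of the two-machine theorem (Fujii-Kasami-Ninomiya), for a strict partial order `lt` and a
set `S` of jobs: a splitting of `S` into classes of at most two pairwise incomparable jobs can be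
turned into an order-respecting one with the same number of classes. -/
theorem two_core {V : Type*} [DecidableEq V] (lt : V → V → Prop)
    (hirr : ∀ v, ¬ lt v v) (htr : ∀ u v w, lt u v → lt v w → lt u w) :
    ∀ (c : ℕ) (S : Finset V) (σ : V → ℕ), S.card = c →
      (∀ t, (S.filter (fun v => σ v = t)).card ≤ 2) →
      (∀ u ∈ S, ∀ v ∈ S, lt u v → σ u ≠ σ v) →
      ∃ τ : V → ℕ, (∀ v ∈ S, 1 ≤ τ v ∧ τ v ≤ (S.image σ).card) ∧
        (∀ t, (S.filter (fun v => τ v = t)).card ≤ 2) ∧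
        (∀ u ∈ S, ∀ v ∈ S, lt u v → τ u < τ v) := by
  intro c
  induction c using Nat.strong_induction_on with
  | _ c ih =>
  intro S σ hc h2 hanti
  rcases S.eq_empty_or_nonempty with rfl | ⟨x0, hx0⟩
  · exact ⟨fun _ => 0, by simp, by simp, by simp⟩
  -- the induction hypothesis applied to `S \ A`
  have apply_ih : ∀ (A : Finset V) (σ' : V → ℕ) (x : ℕ), A ⊆ S → A.Nonempty → A.card ≤ 2 →
      (∀ a ∈ A, ∀ u ∈ S, ¬ lt u a) → x ∈ S.image σ →
      (∀ v ∈ S \ A, σ' v ∈ S.image σ ∧ σ' v ≠ x) →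
      (∀ t, ((S \ A).filter (fun v => σ' v = t)).card ≤ 2) →
      (∀ u ∈ S \ A, ∀ v ∈ S \ A, lt u v → σ' u ≠ σ' v) →
      ∃ τ : V → ℕ, (∀ v ∈ S, 1 ≤ τ v ∧ τ v ≤ (S.image σ).card) ∧
        (∀ t, (S.filter (fun v => τ v = t)).card ≤ 2) ∧
        (∀ u ∈ S, ∀ v ∈ S, lt u v → τ u < τ v) := by
    intro A σ' x hAS hAne hA2 hAmin hx himg h2' hanti'
    have hlt : (S \ A).card < c := by
      rw [← hc]
      exact Finset.card_lt_card (Finset.sdiff_ssubset hAS hAne)
    obtain ⟨τ', t1, t2, t3⟩ := ih _ hlt (S \ A) σ' rfl h2' hanti'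
    exact step lt S A σ σ' x hA2 hAmin hx himg τ' t1 t2 t3
  -- restriction of the hypotheses to a subset, same `σ`
  have h2sub : ∀ (A : Finset V) (t : ℕ), ((S \ A).filter (fun v => σ v = t)).card ≤ 2 :=
    fun A t => (Finset.card_le_card
      (Finset.filter_subset_filter _ Finset.sdiff_subset)).trans (h2 t)
  have hantisub : ∀ A : Finset V, ∀ u ∈ S \ A, ∀ v ∈ S \ A, lt u v → σ u ≠ σ v :=
    fun A u hu v hv => hanti u (Finset.mem_sdiff.mp hu).1 v (Finset.mem_sdiff.mp hv).1
  by_cases h_i : ∃ a ∈ S, (∀ u ∈ S, ¬ lt u a) ∧ ∀ b ∈ S, b ≠ a → σ b ≠ σ a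
  · -- case (i)
    obtain ⟨a, ha, hmin, hal⟩ := h_i
    refine apply_ih {a} σ (σ a) (by simpa using ha) ⟨a, by simp⟩ (by simp) ?_
      (Finset.mem_image_of_mem σ ha) ?_ (h2sub _) (hantisub _)
    · intro a' ha'
      rw [Finset.mem_singleton.mp ha']
      exact hmin
    · intro v hv
      obtain ⟨hvS, hva⟩ := Finset.mem_sdiff.mp hv
      exact ⟨Finset.mem_image_of_mem σ hvS, hal v hvS (by simpa using hva)⟩
  by_cases h_ii : ∃ a ∈ S, ∃ b ∈ S, a ≠ b ∧ (∀ u ∈ S, ¬ lt u a) ∧ (∀ u ∈ S, ¬ lt u b) ∧ σ b = σ a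
  · -- case (ii)
    obtain ⟨a, ha, b, hb, hab, hmina, hminb, hσ⟩ := h_ii
    refine apply_ih {a, b} σ (σ a) ?_ ⟨a, by simp⟩ Finset.card_le_two ?_
      (Finset.mem_image_of_mem σ ha) ?_ (h2sub _) (hantisub _)
    · intro y hy
      simp only [Finset.mem_insert, Finset.mem_singleton] at hy
      rcases hy with rfl | rfl
      · exact ha
      · exact hb
    · intro y hy
      simp only [Finset.mem_insert, Finset.mem_singleton] at hy
      rcases hy with rfl | rfl
      · exact hmina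
      · exact hminb
    · intro v hv
      obtain ⟨hvS, hvA⟩ := Finset.mem_sdiff.mp hv
      refine ⟨Finset.mem_image_of_mem σ hvS, fun hσv => hvA ?_⟩
      simp only [Finset.mem_insert, Finset.mem_singleton]
      exact class_two h2 ha hb hvS hab hσ hσv
  -- case (iii)
  have partner : ∀ a ∈ S, (∀ u ∈ S, ¬ lt u a) → ∃ b ∈ S, b ≠ a ∧ σ b = σ a := by
    intro a ha hmin
    by_contra hno
    exact h_i ⟨a, ha, hmin, fun b hb hba hσ => hno ⟨b, hb, hba, hσ⟩⟩
  have notmin : ∀ a ∈ S, ∀ b ∈ S, a ≠ b → (∀ u ∈ S, ¬ lt u a) → σ b = σ a →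
      ∃ u ∈ S, lt u b := by
    intro a ha b hb hab hmin hσ
    by_contra hno
    exact h_ii ⟨a, ha, b, hb, hab, hmin, fun u hu hlt => hno ⟨u, hu, hlt⟩, hσ⟩
  -- some minimal element and its partner
  obtain ⟨a0, ha0, -, hmin0⟩ := exists_min lt hirr htr S (fun _ => True) hx0 trivial
  have hmin0' : ∀ u ∈ S, ¬ lt u a0 := fun u hu => hmin0 u hu trivial
  obtain ⟨b0, hb0, hb0a, hσ0⟩ := partner a0 ha0 hmin0'
  -- a minimal partner
  obtain ⟨b, hb, ⟨a, ha, hmina, hba, hσb⟩, hbmin⟩ := exists_min lt hirr htr S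
    (fun y => ∃ a ∈ S, (∀ u ∈ S, ¬ lt u a) ∧ y ≠ a ∧ σ y = σ a) hb0 ⟨a0, ha0, hmin0', hb0a, hσ0⟩
  obtain ⟨u0, hu0, hu0b⟩ := notmin a ha b hb (fun h => hba h.symm) hmina hσb
  -- a minimal element below `b`
  obtain ⟨a2, ha2, ha2b, ha2min⟩ := exists_min lt hirr htr S (fun y => lt y b) hu0 hu0b
  have hmina2 : ∀ u ∈ S, ¬ lt u a2 := fun u hu hlt => ha2min u hu (htr _ _ _ hlt ha2b) hlt
  have hσa2b : σ a2 ≠ σ b := hanti a2 ha2 b hb ha2b
  have hσa2a : σ a2 ≠ σ a := fun h => hσa2b (h.trans hσb.symm)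
  obtain ⟨b2, hb2, hb2a2, hσb2⟩ := partner a2 ha2 hmina2
  have hnb2b : ¬ lt b2 b := hbmin b2 hb2 ⟨a2, ha2, hmina2, hb2a2, hσb2⟩
  have hnbb2 : ¬ lt b b2 := fun h => hanti a2 ha2 b2 hb2 (htr _ _ _ ha2b h) hσb2.symm
  have hupd_b : Function.update σ b (σ a2) b = σ a2 := Function.update_self _ _ _
  have hupd_ne : ∀ v, v ≠ b → Function.update σ b (σ a2) v = σ v :=
    fun v hv => Function.update_of_ne hv _ _
  -- elements of the class of `a2` outside `{a, a2}` are `b2`
  have hcls2 : ∀ v ∈ S \ {a, a2}, σ v = σ a2 → v = b2 := by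
    intro v hv hσv
    obtain ⟨hvS, hvA⟩ := Finset.mem_sdiff.mp hv
    simp only [Finset.mem_insert, Finset.mem_singleton, not_or] at hvA
    rcases class_two h2 ha2 hb2 hvS (fun h => hb2a2 h.symm) hσb2 hσv with h | h
    · exact absurd h hvA.2
    · exact h
  refine apply_ih {a, a2} (Function.update σ b (σ a2)) (σ a) ?_ ⟨a, by simp⟩ Finset.card_le_two ?_
    (Finset.mem_image_of_mem σ ha) ?_ ?_ ?_
  · intro y hy
    simp only [Finset.mem_insert, Finset.mem_singleton] at hy
    rcases hy with rfl | rfl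
    · exact ha
    · exact ha2
  · intro y hy
    simp only [Finset.mem_insert, Finset.mem_singleton] at hy
    rcases hy with rfl | rfl
    · exact hmina
    · exact hmina2
  · intro v hv
    obtain ⟨hvS, hvA⟩ := Finset.mem_sdiff.mp hv
    simp only [Finset.mem_insert, Finset.mem_singleton, not_or] at hvA
    by_cases hvb : v = b
    · rw [hvb, hupd_b]
      exact ⟨Finset.mem_image_of_mem σ ha2, hσa2a⟩
    · rw [hupd_ne v hvb]
      refine ⟨Finset.mem_image_of_mem σ hvS, fun hσv => ?_⟩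
      rcases class_two h2 ha hb hvS (fun h => hba h.symm) hσb hσv with h | h
      · exact hvA.1 h
      · exact hvb h
  · intro t
    by_cases ht : t = σ a2
    · refine (Finset.card_le_card ?_).trans (Finset.card_le_two (a := b) (b := b2))
      intro v hv
      obtain ⟨hvS', hvt⟩ := Finset.mem_filter.mp hv
      simp only [Finset.mem_insert, Finset.mem_singleton]
      by_cases hvb : v = b
      · exact Or.inl hvb
      · rw [hupd_ne v hvb, ht] at hvt
        exact Or.inr (hcls2 v hvS' hvt)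
    · refine (Finset.card_le_card ?_).trans (h2 t)
      intro v hv
      obtain ⟨hvS', hvt⟩ := Finset.mem_filter.mp hv
      have hvb : v ≠ b := by
        intro hvb
        rw [hvb, hupd_b] at hvt
        exact ht hvt.symm
      rw [hupd_ne v hvb] at hvt
      exact Finset.mem_filter.mpr ⟨(Finset.mem_sdiff.mp hvS').1, hvt⟩
  · intro u hu v hv huv
    by_cases hub : u = b
    · have hvb : v ≠ b := by
        intro hvb
        rw [hub, hvb] at huv
        exact hirr b huv
      rw [hub, hupd_b, hupd_ne v hvb]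
      intro hσv
      have := hcls2 v hv hσv.symm
      rw [hub, this] at huv
      exact hnbb2 huv
    · by_cases hvb : v = b
      · rw [hvb, hupd_b, hupd_ne u hub]
        intro hσu
        have := hcls2 u hu hσu
        rw [hvb, this] at huv
        exact hnb2b huv
      · rw [hupd_ne u hub, hupd_ne v hvb]
        exact hanti u (Finset.mem_sdiff.mp hu).1 v (Finset.mem_sdiff.mp hv).1 huv

/-- Two machines: the unordered relaxation is exact. -/
theorem two_machines {V : Type*} [Fintype V] [DecidableEq V] (E : V → V → Prop) (hE : Acyclic E)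
    (T : ℕ) (σ : V → ℕ) (hσ : IsAntichainPacking 2 T E σ) : ∃ τ, IsSchedule 2 T E τ := by
  obtain ⟨hrange, hcap, hanti⟩ := hσ
  obtain ⟨τ, h1, h2, h3⟩ := two_core (Relation.TransGen E) hE
    (fun _ _ _ h h' => Relation.TransGen.trans h h') (Finset.univ : Finset V).card Finset.univ σ rfl
    hcap (fun u _ v _ huv => hanti u v huv)
  have hcard : ((Finset.univ : Finset V).image σ).card ≤ T := by
    have hsub : (Finset.univ : Finset V).image σ ⊆ Finset.Icc 1 T := by
      intro t ht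
      obtain ⟨v, _, rfl⟩ := Finset.mem_image.1 ht
      exact Finset.mem_Icc.2 (hrange v)
    calc ((Finset.univ : Finset V).image σ).card ≤ (Finset.Icc 1 T).card := Finset.card_le_card hsub
      _ = T := by simp
  refine ⟨τ, fun v => ⟨(h1 v (Finset.mem_univ v)).1, le_trans (h1 v (Finset.mem_univ v)).2 hcard⟩,
    h2, fun u v huv => h3 u (Finset.mem_univ u) v (Finset.mem_univ v) (Relation.TransGen.single huv)⟩

end Vale.Agent.Lib.P324
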